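import Vale.Agent.P101.ZStab.IntConn.Kato

/-!
# P101 `Z`-stability: finite linear algebra for the connectedness lemma
-/

open scoped Matrix.Norms.L2Operator

namespace Vale.P101.ZS.IC

noncomputable section

variable {n : Type*} [Fintype n] [DecidableEq n]

/-- Projections with the same trace are unitarily equivalent. -/
theorem exists_proj_unitary {Q P : Matrix n n ℂ} (hQ : IsStarProjection Q) (hP : IsStarProjection P)
    (h : Q.trace = P.trace) :
    ∃ U ∈ unitary (Matrix n n ℂ), U * Q * star U = P := by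
  have hQh : Q.IsHermitian := hQ.isSelfAdjoint
  have hPh : P.IsHermitian := hP.isSelfAdjoint
  have key : ∀ {R : Matrix n n ℂ} (hR : IsStarProjection R) (hRh : R.IsHermitian) (i : n),
      hRh.eigenvalues i = 0 ∨ hRh.eigenvalues i = 1 := by
    intro R hR hRh i
    set v := hRh.eigenvectorUnitary with hv
    have e := hRh.conjStarAlgAut_star_eigenvectorUnitary
    have e2 : Matrix.diagonal (RCLike.ofReal ∘ hRh.eigenvalues : n → ℂ) *
        Matrix.diagonal (RCLike.ofReal ∘ hRh.eigenvalues) =
        Matrix.diagonal (RCLike.ofReal ∘ hRh.eigenvalues) := by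
      rw [← e, ← map_mul, hR.isIdempotentElem.eq]
    rw [Matrix.diagonal_mul_diagonal] at e2
    have := congrFun (Matrix.diagonal_injective e2) i
    simp only [Function.comp_apply] at this
    have h' : hRh.eigenvalues i * hRh.eigenvalues i = hRh.eigenvalues i := by exact_mod_cast this
    rcases eq_or_ne (hRh.eigenvalues i) 0 with h0 | h0
    · exact Or.inl h0
    · exact Or.inr (mul_right_cancel₀ h0 (by rw [h', one_mul]))
  have hcard : Fintype.card {i // hQh.eigenvalues i = 1} =
      Fintype.card {i // hPh.eigenvalues i = 1} := by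
    have cnt : ∀ {R : Matrix n n ℂ} (hR : IsStarProjection R) (hRh : R.IsHermitian),
        R.trace = (Fintype.card {i // hRh.eigenvalues i = 1} : ℂ) := by
      intro R hR hRh
      rw [hRh.trace_eq_sum_eigenvalues, Fintype.card_subtype, Finset.natCast_card_filter]
      refine Finset.sum_congr rfl fun i _ => ?_
      rcases key hR hRh i with h0 | h0 <;> simp [h0]
    have := cnt hQ hQh
    rw [h, cnt hP hPh] at this
    exact_mod_cast this.symm
  obtain ⟨e⟩ : Nonempty {σ : n ≃ n // ∀ i, hPh.eigenvalues (σ i) = hQh.eigenvalues i} := by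
    have hc : Fintype.card {i // ¬hQh.eigenvalues i = 1} =
        Fintype.card {i // ¬hPh.eigenvalues i = 1} := by
      rw [Fintype.card_subtype_compl, Fintype.card_subtype_compl, hcard]
    let e1 := Fintype.equivOfCardEq hcard
    let e2 := Fintype.equivOfCardEq hc
    refine ⟨⟨(Equiv.sumCompl _).symm.trans ((Equiv.sumCongr e1 e2).trans (Equiv.sumCompl _)),
      fun i => ?_⟩⟩
    by_cases hi : hQh.eigenvalues i = 1
    · simp only [Equiv.trans_apply,
        Equiv.sumCompl_symm_apply_of_pos (p := fun i => hQh.eigenvalues i = 1) hi,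
        Equiv.sumCongr_apply, Sum.map_inl, Equiv.sumCompl_apply_inl]
      rw [(e1 ⟨i, hi⟩).2, hi]
    · simp only [Equiv.trans_apply,
        Equiv.sumCompl_symm_apply_of_neg (p := fun i => hQh.eigenvalues i = 1) hi,
        Equiv.sumCongr_apply, Sum.map_inr, Equiv.sumCompl_apply_inr]
      rw [(key hP hPh _).resolve_right (e2 ⟨i, hi⟩).2, (key hQ hQh i).resolve_right hi]
  obtain ⟨σ, hσ⟩ := e
  let S : Matrix n n ℂ := Matrix.of fun x y => if x = σ y then 1 else 0
  have hS1 : star S * S = 1 := by
    ext i j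
    simp [S, Matrix.mul_apply, Matrix.star_apply, Matrix.one_apply, eq_comm]
  have hS : S ∈ unitary (Matrix n n ℂ) :=
    Unitary.mem_iff.2 ⟨hS1, mul_eq_one_comm.1 hS1⟩
  have hconj : S * Matrix.diagonal (RCLike.ofReal ∘ hQh.eigenvalues : n → ℂ) * star S =
      Matrix.diagonal (RCLike.ofReal ∘ hPh.eigenvalues) := by
    have : S * Matrix.diagonal (RCLike.ofReal ∘ hQh.eigenvalues : n → ℂ) =
        Matrix.diagonal (RCLike.ofReal ∘ hPh.eigenvalues) * S := by
      ext i j
      rw [Matrix.mul_diagonal, Matrix.diagonal_mul]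
      by_cases hij : i = σ j
      · simp [S, hij, hσ j]
      · simp [S, hij]
    rw [this, mul_assoc, (Unitary.mem_iff.1 hS).2, mul_one]
  refine ⟨(hPh.eigenvectorUnitary : Matrix n n ℂ) * S * star (hQh.eigenvectorUnitary : Matrix n n ℂ),
    mul_mem (mul_mem hPh.eigenvectorUnitary.2 hS) (Unitary.star_mem hQh.eigenvectorUnitary.2), ?_⟩
  have eQ := hQh.conjStarAlgAut_star_eigenvectorUnitary
  rw [Unitary.conjStarAlgAut_star_apply] at eQ
  conv_rhs => rw [hPh.spectral_theorem, Unitary.conjStarAlgAut_apply, ← hconj, ← eQ]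
  simp only [star_mul, star_star, mul_assoc]

/-- A unitary is connected to `1` inside the commutant of whatever commutes with it. -/
theorem exists_unitary_path {U : Matrix n n ℂ} (hU : U ∈ unitary (Matrix n n ℂ)) :
    ∃ γ : Set.Icc (0 : ℝ) 1 → Matrix n n ℂ, Continuous γ ∧ γ 0 = 1 ∧ γ 1 = U ∧
      (∀ t, γ t ∈ unitary (Matrix n n ℂ)) ∧
      ∀ x, Commute U x → Commute (star U) x → ∀ t, Commute (γ t) x := by
  classical
  have hfin : (spectrum ℂ U).Finite := Matrix.finite_spectrum U
  have hcont : ∀ f : ℂ → ℂ, ContinuousOn f (spectrum ℂ U) := fun f => hfin.continuousOn f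
  have hn : IsStarNormal U := ⟨by
    show star U * U = U * star U
    rw [(Unitary.mem_iff.1 hU).1, (Unitary.mem_iff.1 hU).2]⟩
  let f : Set.Icc (0 : ℝ) 1 → ℂ → ℂ := fun t z =>
    Complex.exp (((t : ℝ) * Complex.arg z : ℝ) * Complex.I)
  let S := hfin.toFinset
  have hf : ∀ t, cfc (f t) U = ∑ w ∈ S, f t w • cfc (fun z => if z = w then (1 : ℂ) else 0) U := by
    intro t
    rw [Finset.sum_congr rfl fun w _ => (cfc_smul (f t w)
      (fun z => if z = w then (1 : ℂ) else 0) U (hcont _)).symm, ← cfc_sum _ U S fun w _ => hcont _]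
    refine cfc_congr fun z hz => ?_
    simp [S, hz]
  refine ⟨fun t => cfc (f t) U, ?_, ?_, ?_, fun t => ?_, fun x h1 h2 t => h1.cfc h2 _⟩
  · rw [funext hf]
    refine continuous_finsetSum _ fun w _ => ?_
    refine Continuous.smul (f := fun t => f t w) ?_ continuous_const
    fun_prop
  · show cfc (f 0) U = 1
    rw [← cfc_const_one ℂ U]
    exact cfc_congr fun z _ => by simp [f]
  · show cfc (f 1) U = U
    conv_rhs => rw [← cfc_id' ℂ U hn]
    refine cfc_congr fun z hz => ?_
    have : ‖z‖ = 1 := by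
      simpa using spectrum.subset_circle_of_unitary hU hz
    show Complex.exp _ = z
    conv_rhs => rw [← Complex.norm_mul_exp_arg_mul_I z, this]
    simp
  · refine Unitary.mem_iff.2 ⟨?_, ?_⟩ <;>
    · rw [← cfc_star, ← cfc_mul _ _ U (hcont _) (hcont _), ← cfc_const_one ℂ U]
      refine cfc_congr fun z _ => ?_
      simp only [f, Complex.star_def, ← Complex.exp_conj, ← Complex.exp_add]
      simp [Complex.conj_ofReal]

end

end Vale.P101.ZS.IC
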