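import Vale.Agent.P101.ZStab.IntConn.Entries
import Vale.Agent.P101.ZStab.IntConn.Lin

/-!
# P101 `Z`-stability: cutting intertwiners
-/

open scoped Kronecker Matrix.Norms.L2Operator

namespace Vale.P101.ZS.IC

noncomputable section

variable {p : ℕ} {J : Type*} [Fintype J] [DecidableEq J]

/-- The labels below the cut. -/
def cut (a : J → ℝ) (c : ℝ) : Matrix J J ℂ := Matrix.diagonal fun i => if a i ≤ c then 1 else 0

theorem cut_proj (a : J → ℝ) (c : ℝ) : IsStarProjection (cut a c) := by
  constructor
  · show cut a c * cut a c = cut a c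
    rw [cut, Matrix.diagonal_mul_diagonal]
    congr 1
    funext i
    split_ifs <;> simp
  · show star (cut a c) = cut a c
    rw [cut, Matrix.star_eq_conjTranspose, Matrix.diagonal_conjTranspose]
    congr 1
    funext i
    rw [Pi.star_apply]
    split_ifs <;> simp

/-- `i` is in the window of the cut. -/
def InW (a : J → ℝ) (c δ : ℝ) (i : J) : Prop := c - δ < a i ∧ a i ≤ c + δ

/-- Identity outside the window. -/
def WinU (a : J → ℝ) (c δ : ℝ) (G : Matrix J J ℂ) : Prop :=
  ∀ i k, ¬InW a c δ i ∨ ¬InW a c δ k → G i k = (1 : Matrix J J ℂ) i k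

theorem WinU.band {a : J → ℝ} {c δ : ℝ} {G : Matrix J J ℂ} (hδ : 0 ≤ δ) (h : WinU a c δ G) :
    Band a a (2 * δ) G := by
  intro i k hik
  by_cases hw : InW a c δ i ∧ InW a c δ k
  · obtain ⟨⟨h1, h2⟩, h3, h4⟩ := hw
    rw [lt_abs] at hik
    rcases hik with hik | hik <;> linarith
  · have hne : i ≠ k := by rintro rfl; simp at hik; linarith
    rw [h i k (by tauto), Matrix.one_apply_ne hne]

/-- A unitary replaced by the identity outside the window. -/
def trunc (a : J → ℝ) (c δ : ℝ) (G : Matrix J J ℂ) : Matrix J J ℂ :=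
  Matrix.of fun i k => open Classical in
    if InW a c δ i ∧ InW a c δ k then G i k else (1 : Matrix J J ℂ) i k

variable {a : J → ℝ} {c δ : ℝ}

/-- Indicator of the window. -/
def winP (a : J → ℝ) (c δ : ℝ) : Matrix J J ℂ :=
  Matrix.diagonal fun i => open Classical in if InW a c δ i then 1 else 0

theorem commute_winP {G : Matrix J J ℂ}
    (h : ∀ i, ¬InW a c δ i → Commute (Matrix.single i i (1 : ℂ)) G) :
    Commute (winP a c δ) G := by
  classical
  show winP a c δ * G = G * winP a c δ
  ext i k
  rw [winP, Matrix.diagonal_mul, Matrix.mul_diagonal]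
  by_cases hik : i = k
  · subst hik; ring
  by_cases hi : InW a c δ i
  · by_cases hk : InW a c δ k
    · simp [hi, hk]
    · have := congrFun (congrFun (h k hk).eq i) k
      simp [Matrix.mul_apply, Matrix.single_apply, Ne.symm hik] at this
      simp [hi, hk, ← this]
  · have := congrFun (congrFun (h i hi).eq i) k
    simp [Matrix.mul_apply, Matrix.single_apply, hik] at this
    by_cases hk : InW a c δ k <;> simp [hi, hk, this]

theorem trunc_eq {G : Matrix J J ℂ}
    (h : ∀ i, ¬InW a c δ i → Commute (Matrix.single i i (1 : ℂ)) G) :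
    trunc a c δ G = winP a c δ * G + (1 - winP a c δ) := by
  classical
  ext i k
  simp only [trunc, Matrix.of_apply, Matrix.add_apply, Matrix.sub_apply, winP,
    Matrix.diagonal_mul]
  by_cases hi : InW a c δ i
  · by_cases hk : InW a c δ k
    · by_cases hik : i = k
      · subst hik; simp [hi]
      · simp [hi, hk, hik]
    · have hne : i ≠ k := fun e => hk (e ▸ hi)
      have := congrFun (congrFun (h k hk).eq i) k
      simp [Matrix.mul_apply, Matrix.single_apply, Ne.symm hne] at this
      simp [hi, hk, hne, ← this]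
  · by_cases hik : i = k <;> simp [hi, hik]
    simp [hik ▸ hi]

theorem trunc_unitary {G : Matrix J J ℂ} (hG : G ∈ unitary (Matrix J J ℂ))
    (h : ∀ i, ¬InW a c δ i → Commute (Matrix.single i i (1 : ℂ)) G) :
    trunc a c δ G ∈ unitary (Matrix J J ℂ) := by
  classical
  have hc := commute_winP h
  set Pw := winP a c δ
  have hidem : Pw * Pw = Pw := by
    simp only [Pw, winP, Matrix.diagonal_mul_diagonal]
    congr 1; funext i; split_ifs <;> simp
  have hsa : star Pw = Pw := by
    simp only [Pw, winP, Matrix.star_eq_conjTranspose, Matrix.diagonal_conjTranspose]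
    congr 1; funext i; rw [Pi.star_apply]; split_ifs <;> simp
  have key : star (trunc a c δ G) * trunc a c δ G = 1 := by
    rw [trunc_eq h, star_add, star_sub, star_one, star_mul, hsa]
    have e1 : Pw * G * (1 : Matrix J J ℂ) = Pw * G := mul_one _
    have e2 : star G * Pw * (Pw * G) = Pw := by
      rw [mul_assoc, ← mul_assoc Pw, hidem, hc.eq, ← mul_assoc, (Unitary.mem_iff.1 hG).1, one_mul]
    have e3 : (1 - Pw) * (Pw * G) = 0 := by
      rw [← mul_assoc, sub_mul, one_mul, hidem, sub_self, zero_mul]
    have e4 : star G * Pw * (1 - Pw) = 0 := by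
      rw [mul_assoc, mul_sub, mul_one, hidem, sub_self, mul_zero]
    have e5 : (1 - Pw) * (1 - Pw) = 1 - Pw := by
      rw [sub_mul, one_mul, mul_sub, mul_one, hidem, sub_self, sub_zero]
    rw [add_mul, mul_add, mul_add, e2, e3, e4, e5]
    abel
  exact Unitary.mem_iff.2 ⟨key, mul_eq_one_comm.1 key⟩

/-- The compressed cut of an intertwiner. -/
def cutG (p : ℕ) (hp : 0 < p) (a : J → ℝ) (c : ℝ) (X : Matrix (J × In p) (J × In p) ℂ) :
    Matrix J J ℂ :=
  Matrix.of fun i k => (X * up p (cut a c) * star X) (i, (⟨0, hp⟩, 0)) (k, (⟨0, hp⟩, 0))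

variable {η : ℝ} {X : Matrix (J × In p) (J × In p) ℂ}

theorem cut_spec (hp : 0 < p) (hδ : 0 ≤ δ) (hc : η ≤ c - 2 * δ) (hc' : c + 2 * δ ≤ 1 - η)
    (hX : X ∈ unitary (Matrix (J × In p) (J × In p) ℂ)) (h : IBand a a η δ X) :
    up p (cutG p hp a c X) = X * up p (cut a c) * star X ∧
    IsStarProjection (cutG p hp a c X) ∧ (cutG p hp a c X).trace = (cut a c).trace ∧
    ∀ i k, ¬InW a c δ i ∨ ¬InW a c δ k → cutG p hp a c X i k = cut a c i k := by
  classical
  set Q := X * up p (cut a c) * star X with hQ
  have hXP : ∀ x z, (X * up p (cut a c)) x z = if a z.1 ≤ c then X x z else 0 := by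
    intro x z
    rw [show up p (cut a c) = Matrix.diagonal fun z : J × In p => if a z.1 ≤ c then (1 : ℂ) else 0 by
      rw [up, cut, ← Matrix.diagonal_one, Matrix.diagonal_kronecker_diagonal]
      simp, Matrix.mul_diagonal]
    split_ifs <;> simp
  have hQap : ∀ x y, Q x y = ∑ z, (if a z.1 ≤ c then X x z * star (X y z) else 0) := by
    intro x y
    rw [hQ, Matrix.mul_apply]
    refine Finset.sum_congr rfl fun z _ => ?_
    rw [hXP, Matrix.star_apply]
    split_ifs <;> simp
  have hQh : star Q = Q := by
    rw [hQ, star_mul, star_mul, star_star, up_star, (cut_proj a c).isSelfAdjoint.star_eq, mul_assoc]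
  -- outside the window
  have hout : ∀ x y : J × In p, ¬InW a c δ x.1 →
      Q x y = if x = y ∧ a x.1 ≤ c then 1 else 0 := by
    intro x y hx
    have h1 : (X * star X) x y = (1 : Matrix (J × In p) (J × In p) ℂ) x y := by
      rw [(Unitary.mem_iff.1 hX).2]
    rw [hQap]
    simp only [InW, not_and_or, not_lt, not_le] at hx
    rcases hx with hx | hx
    · have hle : a x.1 ≤ c := by linarith
      rw [show (if x = y ∧ a x.1 ≤ c then (1 : ℂ) else 0) = (1 : Matrix (J × In p) (J × In p) ℂ) x y by
        simp [Matrix.one_apply, hle], ← h1, Matrix.mul_apply]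
      refine Finset.sum_congr rfl fun z _ => ?_
      by_cases hz : δ < |a x.1 - a z.1|
      · simp [h.band x z hz]
      · push Not at hz
        rw [abs_le] at hz
        rw [if_pos (by linarith), Matrix.star_apply]
    · have hgt : ¬a x.1 ≤ c := by linarith
      rw [if_neg (by tauto)]
      refine Finset.sum_eq_zero fun z _ => ?_
      by_cases hz : δ < |a x.1 - a z.1|
      · simp [h.band x z hz]
      · push Not at hz
        rw [abs_le] at hz
        rw [if_neg (by linarith)]
  let u₀ : In p := (⟨0, hp⟩, 0)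
  have hscal : ∀ i k u v, Q (i, u) (k, v) = if u = v then Q (i, u₀) (k, u₀) else 0 := by
    intro i k u v
    by_cases hi : InW a c δ i
    · by_cases hk : InW a c δ k
      · have term : ∀ z : J × In p, ∀ x : In p, ∀ i', InW a c δ i' → a z.1 ≤ c →
            X (i', x) z = if x = z.2 then X (i', u₀) (z.1, u₀) else 0 := by
          intro z x i' hi' hzc
          by_cases hz : δ < |a i' - a z.1|
          · simp [h.band (i', x) z hz, h.band (i', u₀) (z.1, u₀) hz]
          · push Not at hz
            rw [abs_le] at hz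
            obtain ⟨h1, h2⟩ := hi'
            exact mid_entry h (by linarith) (by linarith) (by linarith) (by linarith) u₀ x z.2
        rw [hQap, hQap, Fintype.sum_prod_type, Fintype.sum_prod_type]
        by_cases huv : u = v
        · subst huv
          rw [if_pos rfl]
          refine Finset.sum_congr rfl fun j _ => ?_
          by_cases hjc : a j ≤ c
          · have aux : ∀ x : In p, (∑ w, if a j ≤ c then X (i, x) (j, w) * star (X (k, x) (j, w))
                else 0) = X (i, u₀) (j, u₀) * star (X (k, u₀) (j, u₀)) := fun x => by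
              rw [Finset.sum_eq_single x (fun w _ hw => by
                rw [term (j, w) x i hi hjc, if_neg (Ne.symm hw), zero_mul, ite_self])
                fun hx => absurd (Finset.mem_univ _) hx, if_pos hjc, term (j, x) x i hi hjc,
                term (j, x) x k hk hjc, if_pos rfl, if_pos rfl]
            rw [aux, aux]
          · simp [hjc]
        · rw [if_neg huv]
          refine Finset.sum_eq_zero fun j _ => Finset.sum_eq_zero fun w _ => ?_
          by_cases hjc : a j ≤ c
          · rw [if_pos hjc, term (j, w) u i hi hjc, term (j, w) v k hk hjc]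
            split_ifs with e1 e2
            · exact absurd (e1.trans e2.symm) huv
            · simp
            · simp
            · simp
          · simp [hjc]
      · have e : ∀ u v, Q (i, u) (k, v) = star (if (k, v) = (i, u) ∧ a k ≤ c then (1 : ℂ) else 0) := by
          intro u v
          rw [← hout (k, v) (i, u) hk, ← Matrix.star_apply, hQh]
        rw [e, e]
        have hne : k ≠ i := fun e => hk (e ▸ hi)
        simp [hne]
    · rw [hout _ _ hi, hout _ _ hi]
      by_cases huv : u = v <;> simp [huv]
  have hup : up p (cutG p hp a c X) = Q := by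
    ext ⟨i, u⟩ ⟨k, v⟩
    rw [hscal i k u v]
    by_cases huv : u = v <;> simp [up, cutG, huv, hQ, u₀]
  refine ⟨hup, ⟨?_, ?_⟩, ?_, fun i k hik => ?_⟩
  · apply up_injective (p := p) hp
    rw [← up_mul_up, hup, hQ]
    calc X * up p (cut a c) * star X * (X * up p (cut a c) * star X)
        = X * up p (cut a c) * (star X * X) * up p (cut a c) * star X := by simp only [mul_assoc]
      _ = _ := by
        rw [(Unitary.mem_iff.1 hX).1, mul_one, mul_assoc X, up_mul_up,
          (cut_proj a c).isIdempotentElem.eq]
  · show star (cutG p hp a c X) = _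
    apply up_injective (p := p) hp
    rw [← up_star, hup, hQh]
  · have e : Q.trace = (up p (cut a c)).trace := by
      rw [hQ, Matrix.trace_mul_comm, ← mul_assoc, (Unitary.mem_iff.1 hX).1, one_mul]
    rw [← hup, up, up, Matrix.trace_kronecker, Matrix.trace_kronecker] at e
    refine mul_right_cancel₀ ?_ e
    simp [Matrix.trace_one, hp.ne', Nat.cast_add_one_ne_zero]
  · show Q (i, u₀) (k, u₀) = _
    by_cases hi : InW a c δ i
    · have hk : ¬InW a c δ k := by tauto
      have hne : i ≠ k := fun e => hk (e ▸ hi)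
      rw [← hQh, Matrix.star_apply, hout _ _ hk]
      simp [cut, hne, Ne.symm hne]
    · rw [hout _ _ hi]
      by_cases hik' : i = k
      · subst hik'; simp [cut]
      · simp [cut, hik']

theorem single_commute_of_cut {Qg : Matrix J J ℂ}
    (h : ∀ i k, ¬InW a c δ i ∨ ¬InW a c δ k → Qg i k = cut a c i k) (i : J) (hi : ¬InW a c δ i) :
    Commute (Matrix.single i i (1 : ℂ)) Qg := by
  show Matrix.single i i (1 : ℂ) * Qg = Qg * Matrix.single i i 1
  ext x y
  by_cases hx : x = i
  · subst hx
    by_cases hy : y = x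
    · subst hy; simp [Matrix.mul_apply, Matrix.single_apply]
    · have := h x y (Or.inl hi)
      simp [Matrix.mul_apply, Matrix.single_apply, Ne.symm hy, this, cut]
  · by_cases hy : y = i
    · subst hy
      have := h x y (Or.inr hi)
      simp [Matrix.mul_apply, Matrix.single_apply, Ne.symm hx, this, cut, hx]
    · simp [Matrix.mul_apply, Matrix.single_apply, Ne.symm hx, Ne.symm hy]

theorem trunc_conj {G Qg : Matrix J J ℂ} (hG : G ∈ unitary (Matrix J J ℂ))
    (hGc : ∀ i, ¬InW a c δ i → Commute (Matrix.single i i (1 : ℂ)) G)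
    (hQ : ∀ i k, ¬InW a c δ i ∨ ¬InW a c δ k → Qg i k = cut a c i k)
    (hconj : G * Qg * star G = cut a c) :
    trunc a c δ G * Qg * star (trunc a c δ G) = cut a c := by
  classical
  have hPwG := commute_winP hGc
  have hPwQ : Commute (winP a c δ) Qg := commute_winP fun i hi => single_commute_of_cut hQ i hi
  have hout : (1 - winP a c δ) * Qg = (1 - winP a c δ) * cut a c := by
    ext i k
    rw [show (1 : Matrix J J ℂ) - winP a c δ =
      Matrix.diagonal fun i => if InW a c δ i then (0 : ℂ) else 1 by
        rw [winP, ← Matrix.diagonal_one, Matrix.diagonal_sub]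
        congr 1; funext i; split_ifs <;> simp, Matrix.diagonal_mul, Matrix.diagonal_mul]
    by_cases hi : InW a c δ i
    · simp [hi]
    · rw [hQ i k (Or.inl hi)]
  have hsa : star (winP a c δ) = winP a c δ := by
    simp only [winP, Matrix.star_eq_conjTranspose, Matrix.diagonal_conjTranspose]
    congr 1; funext i; rw [Pi.star_apply]; split_ifs <;> simp
  have hidem : winP a c δ * winP a c δ = winP a c δ := by
    simp only [winP, Matrix.diagonal_mul_diagonal]
    congr 1; funext i; split_ifs <;> simp
  rw [trunc_eq hGc, star_add, star_sub, star_one, star_mul, hsa]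
  set Pw := winP a c δ
  have e0 : Pw * (1 - Pw) = 0 := by rw [mul_sub, mul_one, hidem, sub_self]
  have e0' : (1 - Pw) * Pw = 0 := by rw [sub_mul, one_mul, hidem, sub_self]
  have hGs : Commute Pw (star G) := by
    have := hPwG.star_star; rwa [hsa] at this
  calc (Pw * G + (1 - Pw)) * Qg * (star G * Pw + (1 - Pw))
      = Pw * (G * Qg * star G) * Pw + Pw * G * Qg * (1 - Pw) + (1 - Pw) * Qg * (star G * Pw)
        + (1 - Pw) * Qg * (1 - Pw) := by noncomm_ring
    _ = Pw * cut a c * Pw + Pw * G * ((1 - Pw) * Qg) + Qg * ((1 - Pw) * Pw) * star G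
        + (1 - Pw) * Qg * (1 - Pw) := by
      rw [hconj]
      congr 2
      · congr 1
        rw [mul_assoc (Pw * G), ((Commute.one_left Qg).sub_left hPwQ).eq]
      · rw [← hGs.eq]
        calc (1 - Pw) * Qg * (Pw * star G) = (1 - Pw) * Qg * Pw * star G := by rw [mul_assoc ((1 - Pw) * Qg)]
          _ = _ := by rw [((Commute.one_left Qg).sub_left hPwQ).eq, mul_assoc Qg]
    _ = Pw * cut a c * Pw + (1 - Pw) * cut a c * (1 - Pw) := by
      rw [e0', hout, ← mul_assoc, mul_assoc Pw G (1 - Pw),
        ((Commute.one_right G).sub_right hPwG.symm).eq, ← mul_assoc, e0]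
      simp
    _ = cut a c := by
      have hcc : Commute Pw (cut a c) := by
        show winP a c δ * cut a c = cut a c * winP a c δ
        simp only [winP, cut, Matrix.diagonal_mul_diagonal, mul_comm]
      rw [hcc.eq, mul_assoc, hidem, ((Commute.one_left (cut a c)).sub_left hcc).eq, mul_assoc,
        show (1 - Pw) * (1 - Pw) = 1 - Pw by rw [sub_mul, one_mul, e0, sub_zero], ← mul_add]
      simp

/-- Cut of one intertwiner. -/
theorem exists_cut (hp : 0 < p) (hδ : 0 ≤ δ) (hc : η ≤ c - 2 * δ) (hc' : c + 2 * δ ≤ 1 - η)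
    (hX : X ∈ unitary (Matrix (J × In p) (J × In p) ℂ)) (h : IBand a a η δ X) :
    ∃ G ∈ unitary (Matrix J J ℂ), WinU a c δ G ∧ G * cutG p hp a c X * star G = cut a c := by
  classical
  obtain ⟨-, hproj, htr, hQ⟩ := cut_spec hp hδ hc hc' hX h
  set Qg := cutG p hp a c X
  let S := {i : J // InW a c δ i}
  let e : S ⊕ {i : J // ¬InW a c δ i} ≃ J := Equiv.sumCompl _
  have hQb : Qg.submatrix e e = Matrix.fromBlocks (Qg.submatrix Subtype.val Subtype.val) 0 0
      ((cut a c).submatrix Subtype.val Subtype.val) := by
    ext (i | i) (k | k)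
    · rfl
    · show Qg (i : J) (k : J) = 0
      simp [hQ i k (Or.inr k.2), cut, show (i : J) ≠ k from fun e => k.2 (e ▸ i.2)]
    · show Qg (i : J) (k : J) = 0
      simp [hQ i k (Or.inl i.2), cut, show (i : J) ≠ k from fun e => i.2 (e ▸ k.2)]
    · show Qg (i : J) (k : J) = cut a c i k
      exact hQ i k (Or.inl i.2)
  have hPb : (cut a c).submatrix e e = Matrix.fromBlocks
      ((cut a c).submatrix Subtype.val Subtype.val) 0 0
      ((cut a c).submatrix Subtype.val Subtype.val) := by
    ext (i | i) (k | k)
    · rfl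
    · simp [e, cut, show (i : J) ≠ k from fun e => k.2 (e ▸ i.2)]
    · simp [e, cut, show (i : J) ≠ k from fun e => i.2 (e ▸ k.2)]
    · rfl
  set Qs := Qg.submatrix (Subtype.val : S → J) Subtype.val
  set Ps := (cut a c).submatrix (Subtype.val : S → J) Subtype.val
  have hQs : IsStarProjection Qs := by
    constructor
    · have := congrArg (fun M => Matrix.submatrix M e e) hproj.isIdempotentElem.eq
      rw [← Matrix.submatrix_mul_equiv Qg Qg e e e, hQb, Matrix.fromBlocks_multiply] at this
      have := congrArg Matrix.toBlocks₁₁ this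
      simpa [IsIdempotentElem] using this
    · show star Qs = Qs
      ext i k
      exact congrFun (congrFun hproj.isSelfAdjoint.star_eq (i : J)) k
  have hPs : IsStarProjection Ps := by
    constructor
    · have := congrArg (fun M => Matrix.submatrix M e e) (cut_proj a c).isIdempotentElem.eq
      rw [← Matrix.submatrix_mul_equiv (cut a c) (cut a c) e e e, hPb, Matrix.fromBlocks_multiply] at this
      have := congrArg Matrix.toBlocks₁₁ this
      simpa [IsIdempotentElem] using this
    · show star Ps = Ps
      ext i k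
      exact congrFun (congrFun (cut_proj a c).isSelfAdjoint.star_eq (i : J)) k
  have htrs : Qs.trace = Ps.trace := by
    have e1 : (Qg.submatrix e e).trace = Qg.trace := e.sum_comp fun i => Qg i i
    have e2 : ((cut a c).submatrix e e).trace = (cut a c).trace := e.sum_comp fun i => cut a c i i
    rw [hQb] at e1
    rw [hPb] at e2
    simp only [Matrix.trace, Matrix.diag_apply, Fintype.sum_sum_type, Matrix.fromBlocks_apply₁₁,
      Matrix.fromBlocks_apply₂₂] at e1 e2 htr ⊢
    linear_combination e1 - e2 + htr
  obtain ⟨U, hU, hUc⟩ := exists_proj_unitary hQs hPs htrs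
  let G : Matrix J J ℂ := (Matrix.fromBlocks U 0 0 1).submatrix e.symm e.symm
  have hG1 : star G * G = 1 := by
    rw [Matrix.star_eq_conjTranspose, Matrix.conjTranspose_submatrix, Matrix.submatrix_mul_equiv,
      Matrix.fromBlocks_conjTranspose, Matrix.fromBlocks_multiply, ← Matrix.star_eq_conjTranspose,
      (Unitary.mem_iff.1 hU).1]
    simp
  refine ⟨G, Unitary.mem_iff.2 ⟨hG1, mul_eq_one_comm.1 hG1⟩, fun i k hik => ?_, ?_⟩
  · obtain ⟨x, rfl⟩ := e.surjective i
    obtain ⟨y, rfl⟩ := e.surjective k
    simp only [G, Matrix.submatrix_apply, Equiv.symm_apply_apply]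
    rcases x with x | x <;> rcases y with y | y
    · rcases hik with hh | hh
      · exact absurd x.2 hh
      · exact absurd y.2 hh
    · simp [e, Matrix.one_apply, show (x : J) ≠ y from fun he => y.2 (he ▸ x.2)]
    · simp [e, Matrix.one_apply, show (x : J) ≠ y from fun he => x.2 (he ▸ y.2)]
    · simp [e, Matrix.one_apply, Subtype.ext_iff]
  · have hQe : Qg = (Qg.submatrix e e).submatrix e.symm e.symm := by simp
    have hPe : cut a c = ((cut a c).submatrix e e).submatrix e.symm e.symm := by simp
    rw [hQe, hPe, hQb, hPb]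
    simp only [G, Matrix.star_eq_conjTranspose, Matrix.conjTranspose_submatrix,
      Matrix.submatrix_mul_equiv, Matrix.fromBlocks_conjTranspose, Matrix.fromBlocks_multiply]
    rw [← Matrix.star_eq_conjTranspose] at *
    simp [hUc]

/-- Cut of a loop of intertwiners. -/
theorem exists_cut_loop (hp : 0 < p) (hδ : 0 ≤ δ) (hc : η ≤ c - 2 * δ) (hc' : c + 2 * δ ≤ 1 - η)
    {γ : II → Matrix (J × In p) (J × In p) ℂ} (hγ : Continuous γ) (h0 : γ 0 = 1) (h1 : γ 1 = 1)
    (hU : ∀ t, γ t ∈ unitary (Matrix (J × In p) (J × In p) ℂ)) (h : ∀ t, IBand a a η δ (γ t)) :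
    ∃ G : II → Matrix J J ℂ, Continuous G ∧ G 0 = 1 ∧ G 1 = 1 ∧
      ∀ t, G t ∈ unitary (Matrix J J ℂ) ∧ WinU a c δ (G t) ∧
        G t * cutG p hp a c (γ t) * star (G t) = cut a c := by
  classical
  let Q : II → Matrix J J ℂ := fun t => cutG p hp a c (γ t)
  have hs := fun t => cut_spec hp hδ hc hc' (hU t) (h t)
  have hQc : Continuous Q := continuous_matrix fun i k =>
    (((hγ.mul continuous_const).mul hγ.star).matrix_elem _ _)
  have hQend : ∀ t, γ t = 1 → Q t = cut a c := fun t ht => by
    apply up_injective (p := p) hp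
    show up p (cutG p hp a c (γ t)) = _
    rw [(hs t).1, ht]; simp
  obtain ⟨V, hVc, hV0, hVu, hVQ, hVcom⟩ := exists_lift hQc fun t => (hs t).2.1
  have hcomm : ∀ i, ¬InW a c δ i → ∀ t, Commute (Matrix.single i i (1 : ℂ)) (V t) := fun i hi t =>
    hVcom _ (fun t => by
      have h' := single_commute_of_cut (hs t).2.2.2 i hi
      have he : star (Matrix.single i i (1 : ℂ)) = Matrix.single i i 1 := by
        simp [Matrix.star_eq_conjTranspose]
      rw [he]
      exact ⟨h', h'⟩) t
  have hQ0 : Q 0 = cut a c := hQend 0 h0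
  have hV1 : Commute (V 1) (cut a c) := by
    have := hVQ 1
    rw [hQend 1 h1, hQ0] at this
    show V 1 * cut a c = cut a c * V 1
    conv_rhs => rw [← this, mul_assoc, (Unitary.mem_iff.1 (hVu 1)).1, mul_one]
  obtain ⟨K, hKc, hK0, hK1, hKu, hKcom⟩ := exists_unitary_path (hVu 1)
  let G : II → Matrix J J ℂ := fun t => star (K t) * V t
  have hGu : ∀ t, G t ∈ unitary (Matrix J J ℂ) := fun t =>
    mul_mem (Unitary.star_mem (hKu t)) (hVu t)
  have hsingle : ∀ i : J, star (Matrix.single i i (1 : ℂ)) = Matrix.single i i 1 := fun i => by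
    simp [Matrix.star_eq_conjTranspose]
  have hGcom : ∀ t i, ¬InW a c δ i → Commute (Matrix.single i i (1 : ℂ)) (G t) := fun t i hi => by
    have h1' := (hcomm i hi 1).symm
    have h2' : Commute (star (V 1)) (Matrix.single i i (1 : ℂ)) := by
      have := h1'.star_star; rwa [hsingle] at this
    have := (hKcom _ h1' h2' t).star_star
    rw [hsingle] at this
    exact this.symm.mul_right (hcomm i hi t)
  have hKP : ∀ t, Commute (K t) (cut a c) := fun t => hKcom _ hV1 (by
    have := hV1.star_star; rwa [(cut_proj a c).isSelfAdjoint.star_eq] at this) t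
  have hGQ : ∀ t, G t * Q t * star (G t) = cut a c := fun t => by
    show star (K t) * V t * Q t * star (star (K t) * V t) = _
    rw [star_mul, star_star, show star (K t) * V t * Q t * (star (V t) * K t) =
      star (K t) * (V t * Q t * star (V t)) * K t by simp only [mul_assoc], hVQ, hQ0, mul_assoc,
      ← (hKP t).eq, ← mul_assoc, (Unitary.mem_iff.1 (hKu t)).1, one_mul]
  refine ⟨fun t => trunc a c δ (G t), ?_, ?_, ?_, fun t => ⟨trunc_unitary (hGu t) (hGcom t),
    fun i k hik => ?_, trunc_conj (hGu t) (hGcom t) (hs t).2.2.2 (hGQ t)⟩⟩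
  · refine continuous_matrix fun i k => ?_
    simp only [trunc, Matrix.of_apply]
    split_ifs
    · exact ((hKc.star.mul hVc).matrix_elem i k)
    · exact continuous_const
  · ext i k; simp [trunc, G, hK0, hV0]
  · ext i k; simp [trunc, G, hK1, (Unitary.mem_iff.1 (hVu 1)).1]
  · simp only [trunc, Matrix.of_apply]
    rw [if_neg (by tauto)]

end

end Vale.P101.ZS.IC
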