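import Vale.Agent.P101.ZStab.StepPins

/-!
# P101 `Z`-stability: entries of banded intertwiners
-/

open scoped Kronecker Matrix.Norms.L2Operator

namespace Vale.P101.ZS.IC

noncomputable section

variable {p : ℕ} {J : Type*} [Fintype J] [DecidableEq J]

theorem ampP_mul_apply (E : Matrix (Fin p) (Fin p) ℂ) (X : Matrix (J × In p) (J × In p) ℂ)
    (i : J) (a : Fin p) (b : Fin (p + 1)) (y : J × In p) :
    (ampP (J := J) E * X) (i, (a, b)) y = ∑ c, E a c * X (i, (c, b)) y := by
  simp [ampP, Matrix.mul_apply, Fintype.sum_prod_type, Matrix.one_apply]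

theorem mul_ampP_apply (E : Matrix (Fin p) (Fin p) ℂ) (X : Matrix (J × In p) (J × In p) ℂ)
    (x : J × In p) (k : J) (a : Fin p) (b : Fin (p + 1)) :
    (X * ampP (J := J) E) x (k, (a, b)) = ∑ c, X x (k, (c, b)) * E c a := by
  simp [ampP, Matrix.mul_apply, Fintype.sum_prod_type, Matrix.one_apply]

theorem ampQ_mul_apply (E : Matrix (Fin (p + 1)) (Fin (p + 1)) ℂ)
    (X : Matrix (J × In p) (J × In p) ℂ) (i : J) (a : Fin p) (b : Fin (p + 1)) (y : J × In p) :
    (ampQ (J := J) E * X) (i, (a, b)) y = ∑ c, E b c * X (i, (a, c)) y := by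
  simp [ampQ, Matrix.mul_apply, Fintype.sum_prod_type, Matrix.one_apply]

theorem mul_ampQ_apply (E : Matrix (Fin (p + 1)) (Fin (p + 1)) ℂ)
    (X : Matrix (J × In p) (J × In p) ℂ) (x : J × In p) (k : J) (a : Fin p) (b : Fin (p + 1)) :
    (X * ampQ (J := J) E) x (k, (a, b)) = ∑ c, X x (k, (a, c)) * E c b := by
  simp [ampQ, Matrix.mul_apply, Fintype.sum_prod_type, Matrix.one_apply]

variable {a' a : J → ℝ} {η δ : ℝ} {X : Matrix (J × In p) (J × In p) ℂ}

theorem p_entry (h : IBand a' a η δ X) {i k : J} (hi : a' i ≤ 1 - η) (hk : a k ≤ 1 - η)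
    (a₀ c c' : Fin p) (b b' : Fin (p + 1)) :
    X (i, (c, b)) (k, (c', b')) = if c = c' then X (i, (a₀, b)) (k, (a₀, b')) else 0 := by
  classical
  have key := h.pinv (Matrix.single a₀ c 1) (i, (a₀, b)) (k, (c', b')) hi hk
  rw [ampP_mul_apply, mul_ampP_apply] at key
  rcases eq_or_ne c c' with rfl | hc
  · simpa [Matrix.single_apply] using key
  · simpa [Matrix.single_apply, hc] using key

theorem q_entry (h : IBand a' a η δ X) {i k : J} (hi : η ≤ a' i) (hk : η ≤ a k)
    (b₀ c c' : Fin (p + 1)) (u u' : Fin p) :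
    X (i, (u, c)) (k, (u', c')) = if c = c' then X (i, (u, b₀)) (k, (u', b₀)) else 0 := by
  classical
  have key := h.qinv (Matrix.single b₀ c 1) (i, (u, b₀)) (k, (u', c')) hi hk
  rw [ampQ_mul_apply, mul_ampQ_apply] at key
  rcases eq_or_ne c c' with rfl | hc
  · simpa [Matrix.single_apply] using key
  · simpa [Matrix.single_apply, hc] using key

theorem mid_entry (h : IBand a' a η δ X) {i k : J} (hi : η ≤ a' i) (hi' : a' i ≤ 1 - η)
    (hk : η ≤ a k) (hk' : a k ≤ 1 - η) (u₀ u v : In p) :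
    X (i, u) (k, v) = if u = v then X (i, u₀) (k, u₀) else 0 := by
  obtain ⟨a₁, b₁⟩ := u
  obtain ⟨a₂, b₂⟩ := v
  obtain ⟨a₀, b₀⟩ := u₀
  rw [p_entry h hi' hk' a₀]
  by_cases ha : a₁ = a₂
  · subst ha
    rw [if_pos rfl, q_entry h hi hk b₀]
    by_cases hb : b₁ = b₂ <;> simp [hb]
  · simp [ha]

/-- `G ⊗ 1`. -/
abbrev up (p : ℕ) (G : Matrix J J ℂ) : Matrix (J × In p) (J × In p) ℂ :=
  G ⊗ₖ (1 : Matrix (In p) (In p) ℂ)

theorem commute_up_ampP (G : Matrix J J ℂ) (E : Matrix (Fin p) (Fin p) ℂ) :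
    Commute (ampP (J := J) E) (up p G) := by
  simp [Commute, SemiconjBy, ampP, up, ← Matrix.mul_kronecker_mul]

theorem commute_up_ampQ (G : Matrix J J ℂ) (E : Matrix (Fin (p + 1)) (Fin (p + 1)) ℂ) :
    Commute (ampQ (J := J) E) (up p G) := by
  simp [Commute, SemiconjBy, ampQ, up, ← Matrix.mul_kronecker_mul]

theorem up_mul_apply (G : Matrix J J ℂ) (Y : Matrix (J × In p) (J × In p) ℂ) (i : J) (u : In p)
    (y : J × In p) : (up p G * Y) (i, u) y = ∑ j, G i j * Y (j, u) y := by
  simp [up, Matrix.mul_apply, Fintype.sum_prod_type, Matrix.one_apply]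

/-- Multiplying by a banded `G ⊗ 1` from the left. -/
theorem up_mul {d : ℝ} {G : Matrix J J ℂ} (hd : 0 ≤ d) (hG : Band a a d G)
    (h : IBand a a η δ X) : IBand a a (η + d) (d + δ) (up p G * X) := by
  refine ⟨fun x y hxy => ?_, fun E x y hx hy => ?_, fun E x y hx hy => ?_⟩
  · obtain ⟨i, u⟩ := x
    rw [up_mul_apply]
    refine Finset.sum_eq_zero fun j _ => ?_
    by_cases hij : d < |a i - a j|
    · rw [hG i j hij, zero_mul]
    · rw [h.band (j, u) y (by
        have := abs_sub_le (a i) (a j) (a y.1)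
        simp only at hxy ⊢
        push Not at hij
        linarith), mul_zero]
  · rw [← mul_assoc, (commute_up_ampP G E).eq, mul_assoc, mul_assoc]
    obtain ⟨i, u⟩ := x
    rw [up_mul_apply, up_mul_apply]
    refine Finset.sum_congr rfl fun j _ => ?_
    by_cases hij : d < |a i - a j|
    · rw [hG i j hij, zero_mul, zero_mul]
    · push Not at hij
      rw [abs_le] at hij
      simp only at hx
      rw [h.pinv E (j, u) y (by simp only; linarith [hij.1]) (by linarith)]
  · rw [← mul_assoc, (commute_up_ampQ G E).eq, mul_assoc, mul_assoc]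
    obtain ⟨i, u⟩ := x
    rw [up_mul_apply, up_mul_apply]
    refine Finset.sum_congr rfl fun j _ => ?_
    by_cases hij : d < |a i - a j|
    · rw [hG i j hij, zero_mul, zero_mul]
    · push Not at hij
      rw [abs_le] at hij
      simp only at hx
      rw [h.qinv E (j, u) y (by simp only; linarith [hij.2]) (by linarith)]

theorem up_star (G : Matrix J J ℂ) : star (up p G) = up p (star G) := by
  simp [up, Matrix.star_eq_conjTranspose, Matrix.conjTranspose_kronecker]

theorem up_mul_up (G G' : Matrix J J ℂ) : up p G * up p G' = up p (G * G') := by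
  simp [up, ← Matrix.mul_kronecker_mul]

theorem up_one : up p (1 : Matrix J J ℂ) = 1 := by simp [up]

theorem up_injective (hp : 0 < p) : Function.Injective (up (J := J) p) := by
  intro G G' h
  ext i k
  have := congrFun (congrFun h (i, (⟨0, hp⟩, 0))) (k, (⟨0, hp⟩, 0))
  simpa [up] using this

theorem up_mem_unitary {G : Matrix J J ℂ} (h : G ∈ unitary (Matrix J J ℂ)) :
    up p G ∈ unitary (Matrix (J × In p) (J × In p) ℂ) := by
  rw [Unitary.mem_iff, up_star, up_mul_up, up_mul_up, (Unitary.mem_iff.1 h).1,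
    (Unitary.mem_iff.1 h).2, up_one]
  exact ⟨rfl, rfl⟩

end

end Vale.P101.ZS.IC
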