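import Mathlib

/-!
# P101 `Z`-stability: lifting paths of projections, lifting determinants
-/

open scoped Matrix.Norms.L2Operator

namespace Vale.P101.ZS.IC

noncomputable section

variable {A : Type*} [CStarAlgebra A]

/-- The normalisation `x ↦ 1 / √x` away from zero. -/
def nrm (x : ℝ) : ℝ := 1 / √(max x (1 / 2))

theorem continuous_nrm : Continuous nrm :=
  continuous_const.div (Real.continuous_sqrt.comp (continuous_id.max continuous_const))
    fun _ => (Real.sqrt_pos.2 (lt_max_of_lt_right (by norm_num))).ne'

/-- The map between two projections. -/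
def link (q r : A) : A := q * r + (1 - q) * (1 - r)

/-- The unitary between two close projections. -/
def katoU (q r : A) : A := link q r * cfc nrm (star (link q r) * link q r)

theorem star_link_mul {q r : A} (hq : IsStarProjection q) (hr : IsStarProjection r) :
    star (link q r) * link q r = 1 - (q - r) * (q - r) := by
  simp only [link, star_add, star_mul, star_sub, star_one, hq.isSelfAdjoint.star_eq,
    hr.isSelfAdjoint.star_eq]
  have e1 : q * q = q := hq.isIdempotentElem
  have e2 : r * r = r := hr.isIdempotentElem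
  simp only [mul_add, add_mul, mul_sub, sub_mul, mul_one, one_mul, ← mul_assoc, e1, e2]
  have e3 : ∀ x : A, x * q * q = x * q := fun x => by rw [mul_assoc, e1]
  have e4 : ∀ x : A, x * r * r = x * r := fun x => by rw [mul_assoc, e2]
  simp only [e3, e4]
  abel

theorem katoU_self {q : A} (hq : IsStarProjection q) : katoU q q = 1 := by
  have h : link q q = 1 := by
    rw [link, hq.isIdempotentElem.eq, hq.one_sub.isIdempotentElem.eq]; abel
  rw [katoU, h, star_one, one_mul, one_mul, cfc_apply_one (R := ℝ)]
  norm_num [nrm]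

theorem katoU_spec {q r : A} (hq : IsStarProjection q) (hr : IsStarProjection r)
    (h : ‖q - r‖ ≤ 1 / 2) :
    katoU q r ∈ unitary A ∧ katoU q r * r * star (katoU q r) = q := by
  let _ := CStarAlgebra.spectralOrder A
  have _ := CStarAlgebra.spectralOrderedRing A
  set w := link q r with hw
  set a := star w * w with ha
  have hasa : IsSelfAdjoint a := IsSelfAdjoint.star_mul_self w
  have hd : IsSelfAdjoint (q - r) := hq.isSelfAdjoint.sub hr.isSelfAdjoint
  have hspec : ∀ x ∈ spectrum ℝ a, 3 / 4 ≤ x := by
    intro x hx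
    have e : a = 1 - (q - r) * (q - r) := star_link_mul hq hr
    have hn : ‖(q - r) * (q - r)‖ ≤ 1 / 4 := by
      calc _ ≤ ‖q - r‖ * ‖q - r‖ := norm_mul_le _ _
        _ ≤ (1 / 2) * (1 / 2) := by gcongr
        _ = _ := by norm_num
    rw [e, ← map_one (algebraMap ℝ A), ← spectrum.singleton_sub_eq] at hx
    obtain ⟨y, hy, z, hz, rfl⟩ := hx
    rw [Set.mem_singleton_iff.1 hy]
    have : ‖z‖ ≤ 1 / 4 := by
      rcases subsingleton_or_nontrivial A with hA | hA
      · simp [spectrum.of_subsingleton] at hz
      · exact (spectrum.norm_le_norm_of_mem hz).trans hn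
    rw [Real.norm_eq_abs] at this
    dsimp only
    linarith [le_abs_self z]
  have hcw : w * r = q * w := by
    simp only [hw, link, mul_add, add_mul, mul_sub, sub_mul, mul_one, one_mul, ← mul_assoc,
      hq.isIdempotentElem.eq]
    have e4 : ∀ x : A, x * r * r = x * r := fun x => by rw [mul_assoc, hr.isIdempotentElem.eq]
    simp only [e4, hr.isIdempotentElem.eq]
    abel
  have hcr : Commute r a := by
    have h2 : r * star w = star w * q := by
      have := congrArg star hcw
      simpa [star_mul, hq.isSelfAdjoint.star_eq, hr.isSelfAdjoint.star_eq] using this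
    show r * (star w * w) = star w * w * r
    rw [← mul_assoc, h2, mul_assoc, ← hcw, mul_assoc]
  set g := cfc nrm a with hg
  have hgsa : IsSelfAdjoint g := cfc_predicate (p := IsSelfAdjoint) nrm a
  have hgr : Commute r g := (hcr.symm.cfc_real nrm).symm
  have hk : katoU q r = w * g := rfl
  have hga : g * a * g = 1 := by
    have hc := continuous_nrm.continuousOn (s := spectrum ℝ a)
    conv_lhs => rw [hg]; arg 1; arg 2; rw [← cfc_id' ℝ a hasa]
    rw [← cfc_mul nrm (fun x : ℝ => x) a hc continuousOn_id,
      ← cfc_mul (fun x => nrm x * x) nrm a (hc.mul continuousOn_id) hc,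
      ← cfc_const_one ℝ a]
    refine cfc_congr fun x hx => ?_
    have := hspec x hx
    simp only [nrm, max_eq_left (show (1 : ℝ) / 2 ≤ x by linarith)]
    field_simp
    rw [Real.sq_sqrt (by linarith)]
  have h1 : star (w * g) * (w * g) = 1 := by
    rw [star_mul, hgsa.star_eq]
    calc g * star w * (w * g) = g * a * g := by simp only [ha, mul_assoc]
      _ = 1 := hga
  have h2 : w * g * star (w * g) = 1 := by
    have e : w * star w = 1 - (r - q) * (r - q) := by
      have : star (link r q) = w := by
        simp [hw, link, star_add, star_mul, star_sub, hq.isSelfAdjoint.star_eq,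
          hr.isSelfAdjoint.star_eq]
      rw [← star_link_mul hr hq, this, ← this, star_star]
    have hu : IsUnit (w * star w) := by
      rw [e]
      refine (Units.oneSub _ ?_).isUnit
      calc ‖(r - q) * (r - q)‖ ≤ ‖r - q‖ * ‖r - q‖ := norm_mul_le _ _
        _ ≤ (1 / 2) * (1 / 2) := by
          rw [norm_sub_rev] at h
          gcongr
        _ < 1 := by norm_num
    obtain ⟨c, hc⟩ := hu.exists_right_inv
    have hright : (w * g) * ((g * a) * (star w * c)) = 1 := by
      calc _ = w * (g * (g * a)) * (star w * c) := by noncomm_ring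
        _ = w * (g * a * g) * (star w * c) := by
          rw [show g * (g * a) = g * a * g by
            rw [show g * a = a * g from ((Commute.refl a).cfc_real nrm).eq, ← mul_assoc, (show g * a = a * g from ((Commute.refl a).cfc_real nrm).eq)]]
        _ = 1 := by rw [hga, mul_one, ← mul_assoc, hc]
    have : star (w * g) = (g * a) * (star w * c) := by
      calc star (w * g) = star (w * g) * ((w * g) * ((g * a) * (star w * c))) := by
            rw [hright, mul_one]
        _ = _ := by rw [← mul_assoc, h1, one_mul]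
    rw [this]; exact hright
  refine ⟨⟨by rw [hk]; exact h1, by rw [hk]; exact h2⟩, ?_⟩
  rw [hk]
  calc w * g * r * star (w * g) = w * (g * r) * star (w * g) := by rw [mul_assoc w g r]
    _ = w * r * g * star (w * g) := by rw [← hgr.eq, ← mul_assoc]
    _ = q * (w * g * star (w * g)) := by rw [hcw]; simp only [mul_assoc]
    _ = q := by rw [h2, mul_one]

theorem commute_katoU {q r x : A} (hx : Commute x q) (hx' : Commute x r)
    (hxs : Commute (star x) q) (hxs' : Commute (star x) r) : Commute x (katoU q r) := by
  have hl : ∀ y : A, Commute y q → Commute y r → Commute y (link q r) := fun y h h' =>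
    (h.mul_right h').add_right (((Commute.one_right y).sub_right h).mul_right
      ((Commute.one_right y).sub_right h'))
  have h1 := hl x hx hx'
  have h2 : Commute x (star (link q r)) := by
    simpa using (hl _ hxs hxs').star_star
  exact h1.mul_right ((h2.mul_right h1).symm.cfc_real nrm).symm

theorem continuous_katoU {X : Type*} [TopologicalSpace X] {q r : X → A} (hq : Continuous q)
    (hr : Continuous r) (hqp : ∀ x, IsStarProjection (q x)) (hrp : ∀ x, IsStarProjection (r x)) :
    Continuous fun x => katoU (q x) (r x) := by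
  have hl : Continuous fun x => link (q x) (r x) :=
    (hq.mul hr).add ((continuous_const.sub hq).mul (continuous_const.sub hr))
  refine hl.mul (Continuous.cfc' (s := Set.Icc (-5) 5) isCompact_Icc nrm (hl.star.mul hl)
    (fun x z hz => ?_) continuous_nrm.continuousOn fun x => IsSelfAdjoint.star_mul_self _)
  rcases subsingleton_or_nontrivial A with hA | hA
  · simp [spectrum.of_subsingleton] at hz
  have h1 := spectrum.norm_le_norm_of_mem hz
  rw [star_link_mul (hqp x) (hrp x)] at h1
  have hb : ‖(q x - r x) * (q x - r x)‖ ≤ 4 := by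
    calc _ ≤ ‖q x - r x‖ * ‖q x - r x‖ := norm_mul_le _ _
      _ ≤ 2 * 2 := by
        have : ‖q x - r x‖ ≤ 2 := (norm_sub_le _ _).trans (by
          linarith [(hqp x).norm_le, (hrp x).norm_le])
        gcongr
      _ = 4 := by norm_num
  have h2 : ‖z‖ ≤ 1 + 4 := h1.trans ((norm_sub_le _ _).trans (by rw [norm_one]; linarith))
  rw [Real.norm_eq_abs, abs_le] at h2
  exact ⟨by linarith, by linarith⟩

/-- A path of projections is implemented by a path of unitaries in the commutant of the algebra
fixing it. -/
theorem exists_lift {q : Set.Icc (0 : ℝ) 1 → A} (hq : Continuous q)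
    (hp : ∀ t, IsStarProjection (q t)) :
    ∃ V : Set.Icc (0 : ℝ) 1 → A, Continuous V ∧ V 0 = 1 ∧ (∀ t, V t ∈ unitary A) ∧
      (∀ t, V t * q t * star (V t) = q 0) ∧
      ∀ x, (∀ t, Commute x (q t) ∧ Commute (star x) (q t)) → ∀ t, Commute x (V t) := by
  obtain ⟨δ, hδ, hu⟩ := Metric.uniformContinuous_iff.1
    (CompactSpace.uniformContinuous_of_continuous hq) (1 / 2) (by norm_num)
  obtain ⟨N, hN⟩ := exists_nat_one_div_lt hδ
  let pt : ℕ → Set.Icc (0 : ℝ) 1 → Set.Icc (0 : ℝ) 1 := fun k t =>
    ⟨min (t : ℝ) (k / (N + 1)), le_min t.2.1 (by positivity), (min_le_left _ _).trans t.2.2⟩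
  have hptc : ∀ k, Continuous (pt k) := fun k =>
    Continuous.subtype_mk (continuous_subtype_val.min continuous_const) _
  let V : ℕ → Set.Icc (0 : ℝ) 1 → A := fun k t =>
    Nat.rec (1 : A) (fun i v => v * katoU (q (pt i t)) (q (pt (i + 1) t))) k
  have hclose : ∀ i t, ‖q (pt i t) - q (pt (i + 1) t)‖ ≤ 1 / 2 := fun i t => by
    rw [← dist_eq_norm]
    refine (hu (lt_of_le_of_lt ?_ hN)).le
    rw [Subtype.dist_eq, Real.dist_eq]
    show |min (t : ℝ) (i / (N + 1)) - min (t : ℝ) ((i + 1 : ℕ) / (N + 1))| ≤ 1 / (N + 1)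
    refine (abs_min_sub_min_le_max _ _ _ _).trans ?_
    simp only [sub_self, abs_zero]
    have e : |(i : ℝ) / (N + 1) - ((i + 1 : ℕ) : ℝ) / (N + 1)| = 1 / (N + 1) := by
      rw [← sub_div, abs_div]
      simp [abs_of_pos (show (0 : ℝ) < N + 1 by positivity)]
    rw [e]
    exact max_le (by positivity) le_rfl
  have hVc : ∀ k, Continuous (V k) := by
    intro k
    induction k with
    | zero => exact continuous_const
    | succ k ih =>
      exact ih.mul (continuous_katoU (hq.comp (hptc k)) (hq.comp (hptc (k + 1))) (fun t => hp _)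
        fun t => hp _)
  have hV : ∀ k t, V k t ∈ unitary A ∧ V k t * q (pt k t) * star (V k t) = q (pt 0 t) := by
    intro k t
    induction k with
    | zero => exact ⟨one_mem _, by simp [V]⟩
    | succ k ih =>
      obtain ⟨h1, h2⟩ := katoU_spec (hp (pt k t)) (hp (pt (k + 1) t)) (hclose k t)
      refine ⟨mul_mem ih.1 h1, ?_⟩
      show V k t * _ * _ * star (V k t * _) = _
      rw [star_mul]
      rw [← ih.2]
      conv_rhs => rw [← h2]
      simp only [mul_assoc]
  have h0 : ∀ t, pt 0 t = 0 := fun t => Subtype.ext (by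
    show min (t : ℝ) ((0 : ℕ) / _) = 0
    simp [t.2.1])
  have hlast : ∀ t, pt (N + 1) t = t := fun t => Subtype.ext (by
    show min (t : ℝ) ((N + 1 : ℕ) / _) = t
    rw [min_eq_left]
    push_cast
    rw [div_self (by positivity)]
    exact t.2.2)
  refine ⟨V (N + 1), hVc (N + 1), ?_, fun t => (hV (N + 1) t).1, fun t => ?_, fun x hx t => ?_⟩
  · have h00 : ∀ k, pt k 0 = 0 := fun k => Subtype.ext (by
      show min ((0 : Set.Icc (0 : ℝ) 1) : ℝ) _ = 0
      exact min_eq_left (by simp; positivity))
    have : ∀ k, V k 0 = 1 := by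
      intro k
      induction k with
      | zero => rfl
      | succ k ih =>
        show V k 0 * katoU _ _ = 1
        rw [ih, h00, h00, katoU_self (hp _), one_mul]
    exact this (N + 1)
  · have := (hV (N + 1) t).2
    rwa [hlast, h0] at this
  · suffices ∀ k, Commute x (V k t) from this (N + 1)
    intro k
    induction k with
    | zero => exact Commute.one_right x
    | succ k ih => exact ih.mul_right (commute_katoU (hx _).1 (hx _).1 (hx _).2 (hx _).2)

/-- A continuous path in the circle has a continuous argument. -/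
theorem exists_arg {d : Set.Icc (0 : ℝ) 1 → ℂ} (hd : Continuous d) (h : ∀ t, ‖d t‖ = 1) :
    ∃ θ : Set.Icc (0 : ℝ) 1 → ℝ, Continuous θ ∧ ∀ t, d t = Complex.exp (θ t * Complex.I) := by
  let γ : C(Set.Icc (0 : ℝ) 1, Circle) :=
    ⟨fun t => ⟨d t, mem_sphere_zero_iff_norm.2 (h t)⟩, hd.subtype_mk _⟩
  obtain ⟨θ₀, hθ₀⟩ := Circle.exp_surjective (γ 0)
  refine ⟨Circle.isCoveringMap_exp.liftPath γ θ₀ hθ₀.symm, map_continuous _, fun t => ?_⟩
  have h1 := congrFun (Circle.isCoveringMap_exp.liftPath_lifts γ θ₀ hθ₀.symm) t
  simp only [Function.comp_apply] at h1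
  have h2 := congrArg (fun z : Circle => (z : ℂ)) h1
  rw [Circle.coe_exp] at h2
  exact h2.symm

/-- Two arguments of the same path differ by a constant. -/
theorem arg_unique {θ θ' : Set.Icc (0 : ℝ) 1 → ℝ} (h : Continuous θ) (h' : Continuous θ')
    (e : ∀ t, Complex.exp (θ t * Complex.I) = Complex.exp (θ' t * Complex.I)) (s t) :
    θ s - θ' s = θ t - θ' t := by
  have hc : Continuous fun t => (θ t - θ' t) / (2 * Real.pi) := (h.sub h').div_const _
  have hint : ∀ t, (θ t - θ' t) / (2 * Real.pi) ∈ Set.range ((↑) : ℤ → ℝ) := fun t => by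
    obtain ⟨n, hn⟩ := Complex.exp_eq_exp_iff_exists_int.1 (e t)
    refine ⟨n, ?_⟩
    have := congrArg Complex.im hn
    simp at this
    field_simp
    linarith
  have hconst : (θ s - θ' s) / (2 * Real.pi) = (θ t - θ' t) / (2 * Real.pi) := by
    obtain ⟨f, hf⟩ : ∃ f : Set.Icc (0 : ℝ) 1 → ℤ, ∀ t, (f t : ℝ) = (θ t - θ' t) / (2 * Real.pi) :=
      ⟨fun t => (hint t).choose, fun t => (hint t).choose_spec⟩
    have hfc : Continuous f := by
      refine Int.isClosedEmbedding_coe_real.isEmbedding.continuous_iff.2 ?_
      simpa [Function.comp_def, hf] using hc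
    rw [← hf s, ← hf t, PreconnectedSpace.constant inferInstance hfc]
  field_simp at hconst
  linarith

end

end Vale.P101.ZS.IC
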