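import Vale.Agent.P101.ZStab.IntConn.Cut

/-!
# P101 `Z`-stability: parts of a unitary which is block diagonal for a set of labels

`part P f Y` is `Y ⊗ 1` on the labels in `P`, read through `f : T ≃ κ × μ`, and `1` elsewhere.
-/

open scoped Kronecker Matrix.Norms.L2Operator

namespace Vale.P101.ZS.IC

noncomputable section

set_option linter.unusedSectionVars false

section Part

variable {J T κ μ : Type} [Fintype J] [DecidableEq J] [Fintype T] [DecidableEq T] [Fintype κ]
  [DecidableEq κ] [Fintype μ] [DecidableEq μ] (P : J → Prop) [DecidablePred P] (f : T ≃ κ × μ)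

/-- The two kinds of coordinates. -/
def idx : J × T ≃ (({i // P i} × κ) × μ) ⊕ ({i // ¬P i} × T) :=
  ((Equiv.sumCompl P).symm.prodCongr (Equiv.refl T)).trans ((Equiv.sumProdDistrib _ _ _).trans
    (Equiv.sumCongr (((Equiv.refl _).prodCongr f).trans (Equiv.prodAssoc _ _ _).symm)
      (Equiv.refl _)))

/-- `Y ⊗ 1` on `P` and `1` elsewhere. -/
def part (Y : Matrix ({i // P i} × κ) ({i // P i} × κ) ℂ) : Matrix (J × T) (J × T) ℂ :=
  (Matrix.fromBlocks (Y ⊗ₖ (1 : Matrix μ μ ℂ)) 0 0 1).submatrix (idx P f) (idx P f)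

theorem idx_pos {i : J} (hi : P i) (u : T) :
    idx P f (i, u) = Sum.inl ((⟨i, hi⟩, (f u).1), (f u).2) := by
  simp [idx, Equiv.sumCompl_symm_apply_of_pos hi]

theorem idx_neg {i : J} (hi : ¬P i) (u : T) : idx P f (i, u) = Sum.inr (⟨i, hi⟩, u) := by
  simp [idx, Equiv.sumCompl_symm_apply_of_neg hi]

theorem part_apply {Y : Matrix ({i // P i} × κ) ({i // P i} × κ) ℂ} {i k : J} (hi : P i)
    (hk : P k) (u v : T) :
    part P f Y (i, u) (k, v) =
      if (f u).2 = (f v).2 then Y (⟨i, hi⟩, (f u).1) (⟨k, hk⟩, (f v).1) else 0 := by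
  simp [part, idx_pos P f hi, idx_pos P f hk, Matrix.one_apply]

theorem part_apply_one {Y : Matrix ({i // P i} × κ) ({i // P i} × κ) ℂ} (x y : J × T)
    (h : ¬(P x.1 ∧ P y.1)) : part P f Y x y = (1 : Matrix (J × T) (J × T) ℂ) x y := by
  obtain ⟨i, u⟩ := x
  obtain ⟨k, v⟩ := y
  by_cases hi : P i
  · have hk : ¬P k := fun hk => h ⟨hi, hk⟩
    have hne : i ≠ k := fun e => hk (e ▸ hi)
    simp [part, idx_pos P f hi, idx_neg P f hk, hne]
  · by_cases hk : P k
    · have hne : i ≠ k := fun e => hi (e ▸ hk)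
      simp [part, idx_neg P f hi, idx_pos P f hk, hne]
    · simp [part, idx_neg P f hi, idx_neg P f hk, Matrix.one_apply, Subtype.ext_iff]

theorem part_mul (Y Y' : Matrix ({i // P i} × κ) ({i // P i} × κ) ℂ) :
    part P f Y * part P f Y' = part P f (Y * Y') := by
  simp [part, Matrix.submatrix_mul_equiv, Matrix.fromBlocks_multiply, ← Matrix.mul_kronecker_mul]

theorem part_one : part P f (1 : Matrix ({i // P i} × κ) ({i // P i} × κ) ℂ) = 1 := by
  simp [part, Matrix.fromBlocks_one]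

theorem part_star (Y : Matrix ({i // P i} × κ) ({i // P i} × κ) ℂ) :
    star (part P f Y) = part P f (star Y) := by
  simp [part, Matrix.star_eq_conjTranspose, Matrix.conjTranspose_submatrix,
    Matrix.fromBlocks_conjTranspose, Matrix.conjTranspose_kronecker]

theorem part_mem_unitary {Y : Matrix ({i // P i} × κ) ({i // P i} × κ) ℂ}
    (h : Y ∈ unitary (Matrix ({i // P i} × κ) ({i // P i} × κ) ℂ)) :
    part P f Y ∈ unitary (Matrix (J × T) (J × T) ℂ) := by
  rw [Unitary.mem_iff, part_star, part_mul, part_mul, (Unitary.mem_iff.1 h).1,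
    (Unitary.mem_iff.1 h).2, part_one]
  exact ⟨rfl, rfl⟩

theorem det_part (Y : Matrix ({i // P i} × κ) ({i // P i} × κ) ℂ) :
    (part P f Y).det = Y.det ^ Fintype.card μ := by
  simp [part, Matrix.det_submatrix_equiv_self, Matrix.det_kronecker]

theorem continuous_part {X : Type*} [TopologicalSpace X]
    {Y : X → Matrix ({i // P i} × κ) ({i // P i} × κ) ℂ} (hY : Continuous Y) :
    Continuous fun x => part P f (Y x) := by
  refine continuous_matrix fun a b => ?_
  obtain ⟨i, u⟩ := a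
  obtain ⟨k, v⟩ := b
  by_cases h : P i ∧ P k
  · simp only [part_apply P f h.1 h.2]
    split_ifs
    · exact hY.matrix_elem _ _
    · exact continuous_const
  · simp only [part_apply_one P f (i, u) (k, v) h]
    exact continuous_const

/-- The part read at one copy. -/
def res (m₀ : μ) (Z : Matrix (J × T) (J × T) ℂ) : Matrix ({i // P i} × κ) ({i // P i} × κ) ℂ :=
  Z.submatrix (fun x => ((x.1 : J), f.symm (x.2, m₀))) (fun x => ((x.1 : J), f.symm (x.2, m₀)))

/-- No entries between `P` and its complement. -/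
def Across (Z : Matrix (J × T) (J × T) ℂ) : Prop := ∀ x y, ¬(P x.1 ↔ P y.1) → Z x y = 0

/-- On `P` the matrix is scalar in the factor `μ`. -/
def Scal (m₀ : μ) (Z : Matrix (J × T) (J × T) ℂ) : Prop :=
  ∀ (i k : J) (_ : P i) (_ : P k) (u v : T), Z (i, u) (k, v) =
    if (f u).2 = (f v).2 then Z (i, f.symm ((f u).1, m₀)) (k, f.symm ((f v).1, m₀)) else 0

/-- The identity on `P`. -/
def IdOn (R : Matrix (J × T) (J × T) ℂ) : Prop :=
  ∀ x y, P x.1 ∨ P y.1 → R x y = (1 : Matrix (J × T) (J × T) ℂ) x y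

/-- The matrix with the part on `P` replaced by the identity. -/
def rest (Z : Matrix (J × T) (J × T) ℂ) : Matrix (J × T) (J × T) ℂ :=
  Matrix.of fun x y => if P x.1 ∨ P y.1 then (1 : Matrix (J × T) (J × T) ℂ) x y else Z x y

theorem idOn_rest (Z : Matrix (J × T) (J × T) ℂ) : IdOn P (rest P Z) := fun _ _ h => if_pos h

theorem part_mul_apply {Y : Matrix ({i // P i} × κ) ({i // P i} × κ) ℂ}
    {R : Matrix (J × T) (J × T) ℂ} (hR : IdOn P R) (x y : J × T) :
    (part P f Y * R) x y = if P x.1 then part P f Y x y else R x y := by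
  rw [Matrix.mul_apply]
  split_ifs with hx
  · rw [Finset.sum_eq_single y]
    · by_cases hy : P y.1
      · rw [hR y y (Or.inl hy), Matrix.one_apply_eq, mul_one]
      · have hne : x ≠ y := fun e => hy (e ▸ hx)
        rw [part_apply_one P f x y (fun h => hy h.2), Matrix.one_apply_ne hne, zero_mul]
    · intro z _ hz
      by_cases hzP : P z.1
      · rw [hR z y (Or.inl hzP), Matrix.one_apply_ne hz, mul_zero]
      · have hne : x ≠ z := fun e => hzP (e ▸ hx)
        rw [part_apply_one P f x z (fun h => hzP h.2), Matrix.one_apply_ne hne, zero_mul]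
    · exact fun h => absurd (Finset.mem_univ _) h
  · rw [Finset.sum_eq_single x]
    · rw [part_apply_one P f x x (fun h => hx h.1), Matrix.one_apply_eq, one_mul]
    · intro z _ hz
      rw [part_apply_one P f x z (fun h => hx h.1), Matrix.one_apply_ne (Ne.symm hz), zero_mul]
    · exact fun h => absurd (Finset.mem_univ _) h

theorem scal_eq {m₀ : μ} {Z : Matrix (J × T) (J × T) ℂ} (h : Scal P f m₀ Z) {i k : J} (hi : P i)
    (hk : P k) (u v : T) :
    Z (i, u) (k, v) =
      if (f u).2 = (f v).2 then res P f m₀ Z (⟨i, hi⟩, (f u).1) (⟨k, hk⟩, (f v).1) else 0 :=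
  h i k hi hk u v

/-- A unitary without entries across `P`, scalar on `P`, is the product of its two parts. -/
theorem split {m₀ : μ} {Z : Matrix (J × T) (J × T) ℂ}
    (hZ : Z ∈ unitary (Matrix (J × T) (J × T) ℂ)) (ha : Across P Z) (hs : Scal P f m₀ Z) :
    res P f m₀ Z ∈ unitary (Matrix ({i // P i} × κ) ({i // P i} × κ) ℂ) ∧
      rest P Z ∈ unitary (Matrix (J × T) (J × T) ℂ) ∧ part P f (res P f m₀ Z) * rest P Z = Z := by
  have heq : part P f (res P f m₀ Z) * rest P Z = Z := by
    ext ⟨i, u⟩ ⟨k, v⟩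
    rw [part_mul_apply P f (idOn_rest P Z)]
    by_cases hi : P i
    · rw [if_pos hi]
      by_cases hk : P k
      · rw [part_apply P f hi hk, scal_eq P f hs hi hk]
      · have hne : i ≠ k := fun e => hk (e ▸ hi)
        rw [part_apply_one P f _ _ (fun h => hk h.2), ha _ _ (fun h => hk (h.1 hi))]
        simp [hne]
    · rw [if_neg hi]
      by_cases hk : P k
      · have hne : i ≠ k := fun e => hi (e ▸ hk)
        simp [rest, hk, hne, ha (i, u) (k, v) (fun h => hi (h.2 hk))]
      · simp [rest, hi, hk]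
  have hY : res P f m₀ Z ∈ unitary (Matrix ({i // P i} × κ) ({i // P i} × κ) ℂ) := by
    have h1 : star (res P f m₀ Z) * res P f m₀ Z = 1 := by
      ext ⟨⟨i, hi⟩, s⟩ ⟨⟨k, hk⟩, t⟩
      have h0 : (star Z * Z : Matrix (J × T) (J × T) ℂ) (i, f.symm (s, m₀)) (k, f.symm (t, m₀)) =
          (1 : Matrix (J × T) (J × T) ℂ) (i, f.symm (s, m₀)) (k, f.symm (t, m₀)) := by
        rw [Unitary.star_mul_self_of_mem hZ]
      rw [Matrix.mul_apply, ← (idx P f).symm.sum_comp, Fintype.sum_sum_type,
        Fintype.sum_prod_type] at h0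
      have hr : ∀ z : {i // ¬P i} × T,
          star Z (i, f.symm (s, m₀)) ((idx P f).symm (Sum.inr z)) *
            Z ((idx P f).symm (Sum.inr z)) (k, f.symm (t, m₀)) = 0 := fun z => by
        obtain ⟨⟨j, hj⟩, w⟩ := z
        have e : (idx P f).symm (Sum.inr (⟨j, hj⟩, w)) = (j, w) := by
          rw [Equiv.symm_apply_eq, idx_neg P f hj]
        rw [e, ha (j, w) (k, f.symm (t, m₀)) (fun h => hj (h.2 hk)), mul_zero]
      have hl : ∀ (z : {i // P i} × κ) (m : μ),
          (idx P f).symm (Sum.inl (z, m)) = ((z.1 : J), f.symm (z.2, m)) := fun z m => by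
        rw [Equiv.symm_apply_eq, idx_pos P f z.1.2]
        simp
      simp only [hr, Finset.sum_const_zero, add_zero, hl] at h0
      rw [Finset.sum_congr rfl fun z _ => Finset.sum_eq_single_of_mem m₀ (Finset.mem_univ _)
        fun m _ hm => by rw [hs z.1 k z.1.2 hk, if_neg (by simpa using hm), mul_zero]] at h0
      simp only [Matrix.star_apply] at h0
      rw [Matrix.mul_apply]
      simp only [res, Matrix.star_apply, Matrix.submatrix_apply]
      rw [h0]
      simp [Matrix.one_apply]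
    exact Unitary.mem_iff.2 ⟨h1, mul_eq_one_comm.1 h1⟩
  refine ⟨hY, ?_, heq⟩
  have e : star (part P f (res P f m₀ Z)) * Z = rest P Z := by
    conv_lhs => arg 2; rw [← heq]
    rw [← mul_assoc, Unitary.star_mul_self_of_mem (part_mem_unitary P f hY), one_mul]
  rw [← e]
  exact mul_mem (Unitary.star_mem (part_mem_unitary P f hY)) hZ

theorem rest_eq_one {Q : J → Prop} [DecidablePred Q] {R : Matrix (J × T) (J × T) ℂ}
    (hR : IdOn P R) (h : ∀ i, P i ∨ Q i) : rest Q R = 1 := by
  ext x y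
  by_cases hq : Q x.1 ∨ Q y.1
  · exact if_pos hq
  · rw [rest, Matrix.of_apply, if_neg hq]
    exact hR x y ((h x.1).imp id fun hx => absurd (Or.inl hx) hq)

theorem continuous_rest {X : Type*} [TopologicalSpace X] {Z : X → Matrix (J × T) (J × T) ℂ}
    (hZ : Continuous Z) : Continuous fun x => rest P (Z x) :=
  continuous_matrix fun i k => by
    simp only [rest, Matrix.of_apply]
    split_ifs
    · exact continuous_const
    · exact hZ.matrix_elem i k

end Part

section Band

variable {p : ℕ} {J : Type} [Fintype J] [DecidableEq J] {a : J → ℝ} {η δ : ℝ}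

theorem _root_.Vale.P101.ZS.IBand.mono {a' : J → ℝ} {η' δ' : ℝ} {X : Matrix (J × In p) (J × In p) ℂ}
    (h : IBand a' a η δ X) (hη : η ≤ η') (hδ : δ ≤ δ') : IBand a' a η' δ' X :=
  ⟨fun x y hxy => h.band x y (hδ.trans_lt hxy),
    fun E x y hx hy => h.pinv E x y (by linarith) (by linarith),
    fun E x y hx hy => h.qinv E x y (by linarith) (by linarith)⟩

theorem iband_one (hδ : 0 ≤ δ) : IBand a a η δ (1 : Matrix (J × In p) (J × In p) ℂ) := by
  refine ⟨fun x y hxy => Matrix.one_apply_ne fun e => ?_, fun E x y _ _ => by simp,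
    fun E x y _ _ => by simp⟩
  subst e
  rw [sub_self, abs_zero] at hxy
  linarith

/-- Being a banded intertwiner is checked block by block. -/
theorem iband_blocks {Z : Matrix (J × In p) (J × In p) ℂ}
    (h : ∀ i k, ∃ W, IBand a a η δ W ∧ ∀ u v : In p, Z (i, u) (k, v) = W (i, u) (k, v)) :
    IBand a a η δ Z := by
  refine ⟨fun ⟨i, u⟩ ⟨k, v⟩ hxy => ?_, fun E ⟨i, u, u'⟩ ⟨k, v, v'⟩ hx hy => ?_,
    fun E ⟨i, u, u'⟩ ⟨k, v, v'⟩ hx hy => ?_⟩
  · obtain ⟨W, hW, he⟩ := h i k
    rw [he]
    exact hW.band _ _ hxy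
  · obtain ⟨W, hW, he⟩ := h i k
    have := hW.pinv E (i, (u, u')) (k, (v, v')) hx hy
    rw [ampP_mul_apply, mul_ampP_apply] at this ⊢
    simpa only [he] using this
  · obtain ⟨W, hW, he⟩ := h i k
    have := hW.qinv E (i, (u, u')) (k, (v, v')) hx hy
    rw [ampQ_mul_apply, mul_ampQ_apply] at this ⊢
    simpa only [he] using this

theorem iband_rest (hδ : 0 ≤ δ) (P : J → Prop) [DecidablePred P]
    {Z : Matrix (J × In p) (J × In p) ℂ} (h : IBand a a η δ Z) : IBand a a η δ (rest P Z) :=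
  iband_blocks fun i k => by
    by_cases hp : P i ∨ P k
    · exact ⟨1, iband_one hδ, fun u v => if_pos hp⟩
    · exact ⟨Z, h, fun u v => if_neg hp⟩

theorem iband_part_mul {κ μ : Type} [Fintype κ] [DecidableEq κ] [Fintype μ] [DecidableEq μ]
    (P : J → Prop) [DecidablePred P] (f : In p ≃ κ × μ)
    {Y : Matrix ({i // P i} × κ) ({i // P i} × κ) ℂ} {R : Matrix (J × In p) (J × In p) ℂ}
    (hR : IdOn P R) (hY : IBand a a η δ (part P f Y)) (hRb : IBand a a η δ R) :
    IBand a a η δ (part P f Y * R) :=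
  iband_blocks fun i k => by
    by_cases hi : P i
    · exact ⟨part P f Y, hY, fun u v => by rw [part_mul_apply P f hR, if_pos hi]⟩
    · exact ⟨R, hRb, fun u v => by rw [part_mul_apply P f hR, if_neg hi]⟩

variable (p)

/-- The lower part: scalar in the first factor. -/
def fL : In p ≃ Fin (p + 1) × Fin p := Equiv.prodComm _ _

/-- The middle part: scalar in both factors. -/
def fM : In p ≃ Unit × In p := (Equiv.punitProd (In p)).symm

/-- The upper part: scalar in the second factor. -/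
def fU : In p ≃ Fin p × Fin (p + 1) := Equiv.refl _

variable {p} (P : J → Prop) [DecidablePred P]

theorem part_band {κ μ : Type} [Fintype κ] [DecidableEq κ] [Fintype μ] [DecidableEq μ]
    (f : In p ≃ κ × μ) (hδ : 0 ≤ δ) {Y : Matrix ({i // P i} × κ) ({i // P i} × κ) ℂ}
    (hY : Band (fun x => a x.1) (fun x => a x.1) δ Y) (x y : J × In p)
    (hxy : δ < |a x.1 - a y.1|) : part P f Y x y = 0 := by
  by_cases h : P x.1 ∧ P y.1
  · obtain ⟨i, u⟩ := x
    obtain ⟨k, v⟩ := y
    rw [part_apply P f h.1 h.2, hY _ _ hxy, ite_self]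
  · rw [part_apply_one P f x y h]
    refine Matrix.one_apply_ne fun e => ?_
    subst e
    rw [sub_self, abs_zero] at hxy
    linarith

theorem commute_part_fL (Y : Matrix ({i // P i} × Fin (p + 1)) ({i // P i} × Fin (p + 1)) ℂ)
    (E : Matrix (Fin p) (Fin p) ℂ) : Commute (ampP (J := J) E) (part P (fL p) Y) := by
  show ampP (J := J) E * _ = _ * ampP (J := J) E
  ext ⟨i, u, u'⟩ ⟨k, v, v'⟩
  rw [ampP_mul_apply, mul_ampP_apply]
  by_cases h : P i ∧ P k
  · simp only [part_apply P (fL p) h.1 h.2]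
    simp only [fL, Equiv.prodComm_apply, Prod.swap_prod_mk]
    rw [Finset.sum_eq_single v (fun b _ hb => by simp [hb]) (by simp),
      Finset.sum_eq_single u (fun b _ hb => by simp [Ne.symm hb]) (by simp)]
    simp [mul_comm]
  · simp only [part_apply_one P (fL p) _ _ (show ¬(P (i, _).1 ∧ P (k, _).1) from h)]
    by_cases hik : i = k
    · subst hik
      by_cases hu : u' = v' <;> simp [Matrix.one_apply, hu]
    · simp [Matrix.one_apply, hik]

theorem commute_part_fU (Y : Matrix ({i // P i} × Fin p) ({i // P i} × Fin p) ℂ)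
    (E : Matrix (Fin (p + 1)) (Fin (p + 1)) ℂ) :
    Commute (ampQ (J := J) E) (part P (fU p) Y) := by
  show ampQ (J := J) E * _ = _ * ampQ (J := J) E
  ext ⟨i, u, u'⟩ ⟨k, v, v'⟩
  rw [ampQ_mul_apply, mul_ampQ_apply]
  by_cases h : P i ∧ P k
  · simp only [part_apply P (fU p) h.1 h.2]
    simp only [fU, Equiv.refl_apply]
    rw [Finset.sum_eq_single v' (fun b _ hb => by simp [hb]) (by simp),
      Finset.sum_eq_single u' (fun b _ hb => by simp [Ne.symm hb]) (by simp)]
    simp [mul_comm]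
  · simp only [part_apply_one P (fU p) _ _ (show ¬(P (i, _).1 ∧ P (k, _).1) from h)]
    by_cases hik : i = k
    · subst hik
      by_cases hu : u = v <;> simp [Matrix.one_apply, hu]
    · simp [Matrix.one_apply, hik]

/-- `G` on the window, the identity elsewhere. -/
def wmat (Y : Matrix ({i // P i} × Unit) ({i // P i} × Unit) ℂ) : Matrix J J ℂ :=
  Matrix.of fun i k =>
    if h : P i ∧ P k then Y (⟨i, h.1⟩, ()) (⟨k, h.2⟩, ()) else (1 : Matrix J J ℂ) i k

theorem part_fM_eq_up (Y : Matrix ({i // P i} × Unit) ({i // P i} × Unit) ℂ) :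
    part P (fM p) Y = up p (wmat P Y) := by
  ext ⟨i, u⟩ ⟨k, v⟩
  by_cases h : P i ∧ P k
  · rw [part_apply P (fM p) h.1 h.2]
    simp [up, wmat, fM, h, Matrix.one_apply]
  · rw [part_apply_one P (fM p) _ _ h]
    simp only [up, wmat, Matrix.kroneckerMap_apply, Matrix.of_apply, dif_neg h]
    simp [Matrix.one_apply]
    split_ifs <;> simp_all

theorem iband_part_fL (hδ : 0 ≤ δ) (hP : ∀ i, P i → a i < η)
    {Y : Matrix ({i // P i} × Fin (p + 1)) ({i // P i} × Fin (p + 1)) ℂ}
    (hY : Band (fun x => a x.1) (fun x => a x.1) δ Y) : IBand a a η δ (part P (fL p) Y) := by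
  refine ⟨part_band P _ hδ hY, fun E x y _ _ => by rw [(commute_part_fL P Y E).eq],
    fun E ⟨i, u, u'⟩ ⟨k, v, v'⟩ hx hy => ?_⟩
  have h : ¬(P i ∧ P k) := fun h => absurd (hP i h.1) (not_lt.2 hx)
  have := (iband_one (a := a) (η := η) hδ).qinv E (i, (u, u')) (k, (v, v')) hx hy
  rw [ampQ_mul_apply, mul_ampQ_apply] at this ⊢
  simpa only [part_apply_one P (fL p) _ _ (show ¬(P (i, _).1 ∧ P (k, _).1) from h)] using this

theorem iband_part_fU (hδ : 0 ≤ δ) (hP : ∀ i, P i → 1 - η < a i)
    {Y : Matrix ({i // P i} × Fin p) ({i // P i} × Fin p) ℂ}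
    (hY : Band (fun x => a x.1) (fun x => a x.1) δ Y) : IBand a a η δ (part P (fU p) Y) := by
  refine ⟨part_band P _ hδ hY, fun E ⟨i, u, u'⟩ ⟨k, v, v'⟩ hx hy => ?_,
    fun E x y _ _ => by rw [(commute_part_fU P Y E).eq]⟩
  have h : ¬(P i ∧ P k) := fun h => absurd (hP i h.1) (not_lt.2 hx)
  have := (iband_one (a := a) (η := η) hδ).pinv E (i, (u, u')) (k, (v, v')) hx hy
  rw [ampP_mul_apply, mul_ampP_apply] at this ⊢
  simpa only [part_apply_one P (fU p) _ _ (show ¬(P (i, _).1 ∧ P (k, _).1) from h)] using this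

theorem iband_part_fM (hδ : 0 ≤ δ)
    {Y : Matrix ({i // P i} × Unit) ({i // P i} × Unit) ℂ}
    (hY : Band (fun x => a x.1) (fun x => a x.1) δ Y) : IBand a a η δ (part P (fM p) Y) := by
  refine ⟨part_band P _ hδ hY, fun E x y _ _ => ?_, fun E x y _ _ => ?_⟩ <;> rw [part_fM_eq_up]
  · rw [(commute_up_ampP _ E).eq]
  · rw [(commute_up_ampQ _ E).eq]

variable {X : Matrix (J × In p) (J × In p) ℂ}

theorem scal_fL (h : IBand a a η δ X) (hP : ∀ i, P i → a i ≤ 1 - η) (u₀ : Fin p) :
    Scal P (fL p) u₀ X := by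
  rintro i k hi hk ⟨c, b⟩ ⟨c', b'⟩
  exact p_entry h (hP i hi) (hP k hk) u₀ c c' b b'

theorem scal_fU (h : IBand a a η δ X) (hP : ∀ i, P i → η ≤ a i) (b₀ : Fin (p + 1)) :
    Scal P (fU p) b₀ X := by
  rintro i k hi hk ⟨u, c⟩ ⟨u', c'⟩
  exact q_entry h (hP i hi) (hP k hk) b₀ c c' u u'

theorem scal_fM (h : IBand a a η δ X) (hP : ∀ i, P i → η ≤ a i ∧ a i ≤ 1 - η) (w : In p) :
    Scal P (fM p) w X := by
  intro i k hi hk u v
  exact mid_entry h (hP i hi).1 (hP i hi).2 (hP k hk).1 (hP k hk).2 w u v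

theorem band_res {κ μ : Type} [Fintype κ] [DecidableEq κ] [Fintype μ] [DecidableEq μ]
    (f : In p ≃ κ × μ) (m₀ : μ) (h : IBand a a η δ X) :
    Band (fun x : {i // P i} × κ => a x.1) (fun x => a x.1) δ (res P f m₀ X) := fun _ _ hxy =>
  h.band _ _ hxy

/-- Commuting with a cut leaves no entries across it. -/
theorem across_cut {c : ℝ} (h : Commute (up p (cut a c)) X) : Across (fun i => a i ≤ c) X := by
  intro x y hxy
  have e : up p (cut a c) =
      Matrix.diagonal fun z : J × In p => if a z.1 ≤ c then (1 : ℂ) else 0 := by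
    rw [up, cut, ← Matrix.diagonal_one, Matrix.diagonal_kronecker_diagonal]
    simp
  have := congrFun (congrFun h.eq x) y
  rw [e, Matrix.diagonal_mul, Matrix.mul_diagonal] at this
  by_cases hx : a x.1 ≤ c
  · have hy : ¬a y.1 ≤ c := fun hy => hxy ⟨fun _ => hy, fun _ => hx⟩
    simpa [hx, hy] using this
  · have hy : a y.1 ≤ c := by
      by_contra hy
      exact hxy ⟨fun h' => absurd h' hx, fun h' => absurd h' hy⟩
    simpa [hx, hy] using this.symm

end Band

end

end Vale.P101.ZS.IC
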